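import Vale.Agent.P359.Cert8.Close

/-!
# P359: the uniform spectral gap of the spherical Laughlin Hamiltonian
-/

namespace Vale.Agent.Results.P359.LaughlinGap

open Matrix Vale.Agent.P359.Pairs Vale.Agent.P359.Laughlin

/-- There are `δ > 0` and `N₀` so that for `N ≥ N₀`, at `Q = 3 (N - 1)`, the Hamiltonian
`∑_{i<j} P⁽¹⁾_{ij}` on antisymmetric wave functions is at least `δ (1 - P_L)`; the first part says
that `spinProj Q` is the orthogonal projection on the component of total spin `Q - 1`, and the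
Laughlin vector spans the fermionic zero states. -/
theorem result :
    (∀ Q : ℕ, (spinProj Q).IsHermitian ∧ spinProj Q * spinProj Q = spinProj Q ∧
      ∀ v, spinProj Q *ᵥ v = v ↔
        v ∈ Submodule.span ℂ {w | ∃ (k : ℕ) (u : Fin (Q + 1) × Fin (Q + 1) → ℂ),
          HighestWeight Q u ∧ w = lowerTwo Q ^ k *ᵥ u}) ∧
    ∃ δ : ℝ, 0 < δ ∧ ∃ N₀ : ℕ, ∀ N : ℕ, N₀ ≤ N →
      (IsAntisym (laughlin N (3 * (N - 1))) ∧ laughlin N (3 * (N - 1)) ≠ 0 ∧
        ∀ v : (Fin N → Fin (3 * (N - 1) + 1)) → ℂ, IsAntisym v →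
          (ham (spinProj (3 * (N - 1))) N *ᵥ v = 0 ↔
            ∃ a : ℂ, v = a • laughlin N (3 * (N - 1)))) ∧
      ∀ v : (Fin N → Fin (3 * (N - 1) + 1)) → ℂ, IsAntisym v →
        δ * ((star v ⬝ᵥ v).re - Complex.normSq (star (laughlin N (3 * (N - 1))) ⬝ᵥ v) /
            (star (laughlin N (3 * (N - 1))) ⬝ᵥ laughlin N (3 * (N - 1))).re) ≤
          (star v ⬝ᵥ ham (spinProj (3 * (N - 1))) N *ᵥ v).re := by
  refine ⟨fun Q => ?_, ?_⟩
  · obtain ⟨h1, h2, h3⟩ := spinProj_orthogonal Q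
    refine ⟨h1, h2, fun v => ?_⟩
    rw [← _root_.P359.Cert8.spinComp_intrinsic]
    exact h3 v
  · obtain ⟨d, hd, Q0, h⟩ := _root_.P359.Cert8.car_bound
    obtain ⟨δ, hδ, N0, hN⟩ := _root_.P359.gap_of_car hd h
    exact ⟨δ, hδ, N0, fun N hle => ⟨⟨(hN N hle).1.1, (hN N hle).1.2.1,
      fun v hv => zero_states_iff hv⟩, (hN N hle).2⟩⟩

end Vale.Agent.Results.P359.LaughlinGap
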